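import Vale.Agent.P281.H740.TM.SpecR2
import Vale.Agent.P281.H747.TM.MBase

/-!
# P281, project T-M, sub-block R8 of T10: the form extended over `S`, as a function on `X`
-/

open Set Filter Metric
open Vale.Agent.P281 Vale.Agent.P281.H713 Vale.Agent.P281.H713.TZ.S
open Vale.Agent.P281.H64.Gen (IsSmallSet IsAnalyticSet)
open scoped Manifold ContDiff Topology

noncomputable section

namespace Vale.Agent.P281.H89.TM

open Vale.Agent.P281.H740.TM Vale.Agent.P281.MF

section Ident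

variable {E W : Type} [NormedAddCommGroup E] [NormedSpace ℂ E]
  [NormedAddCommGroup W] [NormedSpace ℂ W] [CompleteSpace W]
  {X : Type*} [TopologicalSpace X] [ChartedSpace E X] [IsManifold 𝓘(ℂ, E) ω X]

/-- Identity theorem: a function holomorphic at `x`, which vanishes identically near points
arbitrarily close to `x`, vanishes identically near `x`. -/
theorem eventually_zero_of_frequently {H : X → W} {x : X} (hH : HolV E H x)
    (h : ∃ᶠ z in 𝓝 x, ∀ᶠ z' in 𝓝 z, H z' = 0) : ∀ᶠ z in 𝓝 x, H z = 0 := by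
  set φ := chartAt E x with hφ
  have hx : x ∈ φ.source := mem_chart_source E x
  have hsrc : ∀ᶠ z in 𝓝 x, z ∈ φ.source := φ.open_source.mem_nhds hx
  have h1 : AnalyticAt ℂ (H ∘ φ.symm) (φ x) := rep_analytic hH
  obtain ⟨r, hr, hball⟩ := Metric.eventually_nhds_iff_ball.1
    (h1.eventually_analyticAt.and (φ.open_target.mem_nhds (φ.map_source hx)))
  have hb : ∀ᶠ z in 𝓝 x, φ z ∈ ball (φ x) r :=
    (φ.continuousAt hx).eventually (ball_mem_nhds _ hr)
  obtain ⟨z, hz0, hzs, hzb⟩ := (h.and_eventually (hsrc.and hb)).exists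
  have h2 : Tendsto φ.symm (𝓝 (φ z)) (𝓝 z) := by
    have := (φ.continuousAt_symm (φ.map_source hzs)).tendsto
    rwa [φ.left_inv hzs] at this
  have h3 : (H ∘ φ.symm) =ᶠ[𝓝 (φ z)] 0 := h2.eventually hz0
  have h4 : AnalyticOnNhd ℂ (H ∘ φ.symm) (ball (φ x) r) := fun w hw => (hball w hw).1
  have h5 := h4.eqOn_zero_of_preconnected_of_eventuallyEq_zero
    (convex_ball (φ x) r).isPreconnected hzb h3
  filter_upwards [hsrc, hb] with w hw hwb
  have h6 := h5 hwb
  simpa only [Function.comp_apply, φ.left_inv hw, Pi.zero_apply] using h6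

end Ident

section
variable {p : ℕ} {X Z : Type} [TopologicalSpace X] [ChartedSpace (Cm (p + 1)) X]
  [IsManifold 𝓘(ℂ, Cm (p + 1)) ω X] [TopologicalSpace Z] [ChartedSpace (Cm p) Z]
  [IsManifold 𝓘(ℂ, Cm p) ω Z] {g : X → Z} {S : Set Z} {w : ℕ} {Θ : X → ℂ}

/-- comparison of two coefficients -/
theorem coef_comp (hg : Continuous g) (hd : Dense (g ⁻¹' S)ᶜ) {x : X} {H : X → ℂ}
    (h : IsCoef p g S w Θ x H) :
    ∀ᶠ z in 𝓝 x, ∀ H', IsCoef p g S w Θ z H' →
      jac (Cm p) (chartAt (Cm p) (g x)) (g z) ^ w *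
        (H' z * jac (Cm (p + 1)) (chartAt (Cm (p + 1)) z) z ^ w) =
      jac (Cm p) (chartAt (Cm p) (g z)) (g z) ^ w *
        (H z * jac (Cm (p + 1)) (chartAt (Cm (p + 1)) x) z ^ w) := by
  have e1 : ∀ᶠ z in 𝓝 x, z ∈ (chartAt (Cm (p + 1)) x).source :=
    (chartAt (Cm (p + 1)) x).open_source.mem_nhds (mem_chart_source _ x)
  have e2 : ∀ᶠ z in 𝓝 x, g z ∈ (chartAt (Cm p) (g x)).source :=
    hg.continuousAt.eventually
      ((chartAt (Cm p) (g x)).open_source.mem_nhds (mem_chart_source _ (g x)))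
  have h1 : HolV (Cm (p + 1)) H x := h.1
  filter_upwards [e1.eventually_nhds, e2.eventually_nhds, h1.eventually,
    eventually_eventually_nhds.2 h.2] with z hz1 hgz1 hHz hev
  have hz : z ∈ (chartAt (Cm (p + 1)) x).source := hz1.self_of_nhds
  have hgz : g z ∈ (chartAt (Cm p) (g x)).source := hgz1.self_of_nhds
  rintro H' ⟨hH', hev'⟩
  have hH'v : HolV (Cm (p + 1)) H' z := hH'
  set R : X → ℂ := fun z' => (fderiv ℂ ((chartAt (Cm (p + 1)) x : X → Cm (p + 1)) ∘
    (chartAt (Cm (p + 1)) z).symm) (chartAt (Cm (p + 1)) z z')).det with hRd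
  set T : Z → ℂ := fun z' => (fderiv ℂ ((chartAt (Cm p) (g x) : Z → Cm p) ∘
    (chartAt (Cm p) (g z)).symm) (chartAt (Cm p) (g z) z')).det with hTd
  have hR : ContinuousAt R z := MF.continuousAt_jac_ratio hz
  have hT : ContinuousAt T (g z) := MF.continuousAt_jac_ratio hgz
  have hR1 : ∀ z', z' ∈ (chartAt (Cm (p + 1)) x).source → z' ∈ (chartAt (Cm (p + 1)) z).source →
      jac (Cm (p + 1)) (chartAt (Cm (p + 1)) x) z' =
        R z' * jac (Cm (p + 1)) (chartAt (Cm (p + 1)) z) z' :=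
    fun z' a b => MF.jac_chart_comp a b
  have hT1 : ∀ z', z' ∈ (chartAt (Cm p) (g x)).source → z' ∈ (chartAt (Cm p) (g z)).source →
      jac (Cm p) (chartAt (Cm p) (g x)) z' = T z' * jac (Cm p) (chartAt (Cm p) (g z)) z' :=
    fun z' a b => MF.jac_chart_comp a b
  have key : T (g z) ^ w * H' z = H z * R z ^ w := by
    have hc1 : ContinuousAt (fun z' => T (g z') ^ w * H' z') z :=
      ((ContinuousAt.comp (f := g) (g := T) hT hg.continuousAt).pow w).mul hH'v.continuousAt
    have hc2 : ContinuousAt (fun z' => H z' * R z' ^ w) z := hHz.continuousAt.mul (hR.pow w)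
    have h3 : ∃ᶠ z' in 𝓝 z, z' ∈ (g ⁻¹' S)ᶜ := mem_closure_iff_frequently.1 (hd z)
    have e3 : ∀ᶠ z' in 𝓝 z, z' ∈ (chartAt (Cm (p + 1)) z).source :=
      (chartAt (Cm (p + 1)) z).open_source.mem_nhds (mem_chart_source _ z)
    have e4 : ∀ᶠ z' in 𝓝 z, g z' ∈ (chartAt (Cm p) (g z)).source :=
      hg.continuousAt.eventually
        ((chartAt (Cm p) (g z)).open_source.mem_nhds (mem_chart_source _ (g z)))
    have e5 : ∀ᶠ z' in 𝓝 z, g z' ∉ S → T (g z') ^ w * H' z' = H z' * R z' ^ w := by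
      filter_upwards [hz1, hgz1, hev, hev', e3, e4] with z' a1 a2 a3 a4 a5 a6 a7
      have b1 := a3 a7
      have b2 := a4 a7
      rw [hR1 z' a1 a5, hT1 (g z') a2 a6, mul_pow, mul_pow, mul_assoc, b2] at b1
      have b3 : jac (Cm (p + 1)) (chartAt (Cm (p + 1)) z) z' ^ w ≠ 0 :=
        pow_ne_zero _ (jac_chart_ne_zero a5)
      refine mul_right_cancel₀ b3 ?_
      rw [mul_assoc, b1]
      ring
    by_contra hne
    obtain ⟨z', b1, b2, b3⟩ := (h3.and_eventually
      (((hc1.sub hc2).eventually_ne (sub_ne_zero.2 hne)).and e5)).exists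
    exact b2 (sub_eq_zero.2 (b3 b1))
  rw [hR1 z hz (mem_chart_source _ z), hT1 (g z) hgz (mem_chart_source _ (g z)), mul_pow, mul_pow]
  linear_combination (jac (Cm p) (chartAt (Cm p) (g z)) (g z) ^ w *
    jac (Cm (p + 1)) (chartAt (Cm (p + 1)) z) z ^ w) * key

end

/-- **R8** of T10. -/
theorem thStmt : ThStmt := by
  intro p X Z _ _ _ _ _ _ g Δ S e₀ w Θ hstd h
  have hfib := hstd.fib
  have : T2Space X := hfib.hausdorff.1
  have : T2Space Z := hfib.hausdorff.2
  have : CompactSpace X := hfib.compact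
  have : ConnectedSpace X := hfib.connected
  obtain ⟨x₁, hx₁, hx₁'⟩ := hstd.ne
  have hsm : IsSmallSet (Cm (p + 1)) (g ⁻¹' S) :=
    ⟨hstd.small.1.preimage hfib.hol.continuous, H64.Gen.preimage_cov (fun z => hfib.hol z)
      ⟨x₁, hstd.proper.submersive x₁ hx₁⟩ hstd.small.cov⟩
  have hd : Dense (g ⁻¹' S)ᶜ := hsm.dense_compl
  have hg : Continuous g := hfib.hol.continuous
  choose H hH using h
  have hj : ∀ x : X, jac (Cm (p + 1)) (chartAt (Cm (p + 1)) x) x ≠ 0 := fun x =>
    jac_chart_ne_zero (mem_chart_source _ x)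
  have hj' : ∀ z : Z, jac (Cm p) (chartAt (Cm p) z) z ≠ 0 := fun z =>
    jac_chart_ne_zero (mem_chart_source _ z)
  set Th : X → ℂ := fun x => H x x * jac (Cm (p + 1)) (chartAt (Cm (p + 1)) x) x ^ w /
    jac (Cm p) (chartAt (Cm p) (g x)) (g x) ^ w with hTh
  have hTh1 : ∀ x, jac (Cm p) (chartAt (Cm p) (g x)) (g x) ^ w * Th x =
      H x x * jac (Cm (p + 1)) (chartAt (Cm (p + 1)) x) x ^ w := fun x =>
    mul_div_cancel₀ _ (pow_ne_zero _ (hj' (g x)))
  have h2 : ∀ x H', IsCoef p g S w Θ x H' → ∀ᶠ z in 𝓝 x,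
      jac (Cm p) (chartAt (Cm p) (g x)) (g z) ^ w * Th z =
        H' z * jac (Cm (p + 1)) (chartAt (Cm (p + 1)) x) z ^ w := by
    intro x H' hx
    filter_upwards [coef_comp hg hd hx] with z hz
    have h3 := hz (H z) (hH z)
    rw [← hTh1 z] at h3
    refine mul_left_cancel₀ (pow_ne_zero w (hj' (g z))) ?_
    rw [← h3]
    ring
  refine ⟨Th, fun x hx => ?_, h2, ?_⟩
  · have h3 := (hH x).2.self_of_nhds hx
    rw [← hTh1 x] at h3
    exact (mul_left_cancel₀ (pow_ne_zero w (hj' (g x))) h3).symm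
  · -- the set where `Th` vanishes identically
    set A : Set X := {x | ∀ᶠ z in 𝓝 x, Th z = 0} with hA
    have hAo : IsOpen A := by
      rw [isOpen_iff_mem_nhds]
      intro x hx
      exact hx.eventually_nhds
    have hiff : ∀ x H', IsCoef p g S w Θ x H' → ∀ᶠ z in 𝓝 x, (Th z = 0 ↔ H' z = 0) := by
      intro x H' hx
      have e1 : ∀ᶠ z in 𝓝 x, z ∈ (chartAt (Cm (p + 1)) x).source :=
        (chartAt (Cm (p + 1)) x).open_source.mem_nhds (mem_chart_source _ x)
      have e2 : ∀ᶠ z in 𝓝 x, g z ∈ (chartAt (Cm p) (g x)).source :=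
        hg.continuousAt.eventually
          ((chartAt (Cm p) (g x)).open_source.mem_nhds (mem_chart_source _ (g x)))
      filter_upwards [h2 x H' hx, e1, e2] with z a1 a2 a3
      have b1 := pow_ne_zero w (jac_chart_ne_zero a2)
      have b2 := pow_ne_zero w (jac_chart_ne_zero a3)
      constructor
      · intro h0
        rw [h0, mul_zero] at a1
        exact (mul_eq_zero.1 a1.symm).resolve_right b1
      · intro h0
        rw [h0, zero_mul] at a1
        exact (mul_eq_zero.1 a1).resolve_left b2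
    have hAc : IsClosed A := by
      rw [← closure_subset_iff_isClosed]
      intro x hx
      have h3 : ∃ᶠ z in 𝓝 x, z ∈ A := mem_closure_iff_frequently.1 hx
      have h4 := hiff x (H x) (hH x)
      have hHx : HolV (Cm (p + 1)) (H x) x := (hH x).1
      have h5 : ∀ᶠ z in 𝓝 x, H x z = 0 := by
        refine eventually_zero_of_frequently hHx ?_
        refine (h3.and_eventually h4.eventually_nhds).mono ?_
        rintro z ⟨hz1, hz2⟩
        have hz1' : ∀ᶠ z' in 𝓝 z, Th z' = 0 := hz1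
        filter_upwards [hz1', hz2] with z' a1 a2 using a2.1 a1
      show ∀ᶠ z in 𝓝 x, Th z = 0
      filter_upwards [h4, h5] with z a1 a2 using a1.2 a2
    intro x H' hx h0
    have hxA : x ∈ A := by
      show ∀ᶠ z in 𝓝 x, Th z = 0
      filter_upwards [hiff x H' hx, h0] with z a1 a2 using a1.2 a2
    have hAu : A = univ := IsClopen.eq_univ ⟨hAc, hAo⟩ ⟨x, hxA⟩
    have h3 : ∀ᶠ z in 𝓝 x₁, Th z = 0 := by
      have : x₁ ∈ A := hAu ▸ mem_univ x₁
      exact this
    have h4 : Th x₁ = 0 := h3.self_of_nhds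
    have h5 := (hH x₁).2.self_of_nhds hx₁
    rw [← hTh1 x₁, h4, mul_zero] at h5
    rcases mul_eq_zero.1 h5 with h6 | h6
    · exact pow_ne_zero w (hj' (g x₁)) h6
    · exact hx₁' h6

end Vale.Agent.P281.H89.TM
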