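import Vale.Agent.P281.H740.TM.Spec
import Vale.Agent.P281.H713.Torus

/-!
# P281, project T-M, block T2: relative forms on a family of tori vanish on the whole fibre or nowhere

`Θ(u a y v) = b(v) JP^N`, where `b` is holomorphic on `V` and bounded, so constant (Liouville).
-/

open scoped Manifold ContDiff Topology
open Set Filter Metric Module

namespace Vale.Agent.P281.H89.TM

open Vale.Agent.P281 Vale.Agent.P281.MF Vale.Agent.P281.ISO Vale.Agent.P281.ELL
  Vale.Agent.P281.H713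

set_option linter.unusedSectionVars false

universe u

section Torus

variable {E E' : Type} [NormedAddCommGroup E] [NormedSpace ℂ E] [FiniteDimensional ℂ E]
  [NormedAddCommGroup E'] [NormedSpace ℂ E'] [FiniteDimensional ℂ E']
variable {X Y : Type u} [TopologicalSpace X] [ChartedSpace E X] [IsManifold 𝓘(ℂ, E) ω X]
  [TopologicalSpace Y] [ChartedSpace E' Y] [IsManifold 𝓘(ℂ, E') ω Y]
variable {V : Type} [NormedAddCommGroup V] [InnerProductSpace ℂ V] [FiniteDimensional ℂ V]
variable {n : ℕ} {Q : (Fin n → ℝ) → (Fin n → ℝ) → ℝ}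
variable {f : X → Y} {S : Set Y} {ι : Type u} {U : ι → Set Y}
  {π : ι → Y → ((Fin n → ℝ) ≃L[ℝ] V)} {u : ι → Y → V → X}

/-- The uniformization `u a y` of the fibre over `y` is holomorphic, and fibre coordinates are, along
it, translations. -/
theorem unif_hol (hT : IsTorusFamily E E' f S Q U π u) (hf : ∀ x, HolM E E' f x)
    (e₀ : E ≃L[ℂ] (E' × V)) {a : ι} {y : Y} (hy : y ∈ U a) (v : V) {ζ : X → V}
    (hζ : TorCoord E E' f u a (u a y v) ζ) :
    ContMDiffAt 𝓘(ℂ, V) 𝓘(ℂ, E) ω (u a y) v ∧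
      ∃ c : V, ∀ᶠ p in 𝓝 v, ζ (u a y p) = p + c := by
  obtain ⟨h1, h2, h3⟩ := hζ
  have hfx : f (u a y v) = y := (hT.unif a y hy v v).1
  obtain ⟨s, hs, hs0, hse⟩ := exists_slice hf e₀ h1 h3
  have hst : Tendsto s (𝓝 (ζ (u a y v))) (𝓝 (u a y v)) := by
    have := hs.continuousAt.tendsto
    rwa [hs0] at this
  have h4 : u a y (ζ (u a y v)) = u a y v := by
    have := h2.self_of_nhds
    rwa [hfx] at this
  obtain ⟨m, hm⟩ := (hT.unif a y hy v (ζ (u a y v))).2.1 h4.symm
  set l : V := π a y fun i => (m i : ℝ) with hl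
  have hper : ∀ p, u a y p = u a y (p + l) := fun p =>
    (hT.unif a y hy p (p + l)).2.2 ⟨m, rfl⟩
  have htr : Tendsto (fun p : V => p + l) (𝓝 v) (𝓝 (ζ (u a y v))) := by
    rw [hm]
    exact (continuous_id.add continuous_const).tendsto v
  have h5 : ∀ᶠ p in 𝓝 (ζ (u a y v)), u a y p = s p := by
    filter_upwards [hse, hst.eventually h2] with p hp hp'
    rw [hp.1, hp.2, hfx] at hp'
    exact hp'
  have h6 : ∀ᶠ p in 𝓝 v, u a y p = s (p + l) := by
    filter_upwards [htr.eventually h5] with p hp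
    rw [hper, hp]
  refine ⟨?_, l, ?_⟩
  · have h7 : ContMDiffAt 𝓘(ℂ, V) 𝓘(ℂ, V) ω (fun p : V => p + l) v :=
      contMDiffAt_iff_contDiffAt.2 (contDiffAt_id.add contDiffAt_const)
    have h8 : ContMDiffAt 𝓘(ℂ, V) 𝓘(ℂ, E) ω s (v + l) := by rwa [hm] at hs
    exact (ContMDiffAt.comp v h8 h7).congr_of_eventuallyEq h6
  · filter_upwards [h6, htr.eventually hse] with p hp hp'
    rw [hp, hp'.2]

/-- The differential of a fibre coordinate is a left inverse of the differential of the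
uniformization. -/
theorem dV_unif (hT : IsTorusFamily E E' f S Q U π u) (hf : ∀ x, HolM E E' f x)
    (e₀ : E ≃L[ℂ] (E' × V)) {a : ι} {y : Y} (hy : y ∈ U a) (v : V) {ζ : X → V}
    (hζ : TorCoord E E' f u a (u a y v) ζ) :
    (dV E ζ (u a y v)).comp (mfderiv 𝓘(ℂ, V) 𝓘(ℂ, E) (u a y) v : V →L[ℂ] E) =
      ContinuousLinearMap.id ℂ V := by
  obtain ⟨h1, c, h2⟩ := unif_hol hT hf e₀ hy v hζ
  rw [← (slice_fderiv h1 hζ.1).2]
  have h3 : (fun z => ζ (u a y z)) =ᶠ[𝓝 v] fun z => z + c := h2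
  rw [h3.fderiv_eq]
  exact ((ContinuousLinearMap.id ℂ V).hasFDerivAt.add_const c).fderiv

theorem dM_unif (hT : IsTorusFamily E E' f S Q U π u) (hf : ∀ x, HolM E E' f x)
    (e₀ : E ≃L[ℂ] (E' × V)) {a : ι} {y : Y} (hy : y ∈ U a) (v : V) {ζ : X → V}
    (hζ : TorCoord E E' f u a (u a y v) ζ) (w : V) :
    dM E E' f (u a y v) ((mfderiv 𝓘(ℂ, V) 𝓘(ℂ, E) (u a y) v : V →L[ℂ] E) w) = 0 :=
  slice_ker hf (unif_hol hT hf e₀ hy v hζ).1
    (Eventually.of_forall fun z => by rw [(hT.unif a y hy z z).1, (hT.unif a y hy v v).1]) w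

/-- Fibre coordinates are fibre coordinates at the nearby points. -/
theorem torCoord_eventually (hf : ∀ x, HolM E E' f x) (e₀ : E ≃L[ℂ] (E' × V)) {a : ι} {x : X}
    {ζ : X → V} (hζ : TorCoord E E' f u a x ζ) : ∀ᶠ z in 𝓝 x, TorCoord E E' f u a z ζ := by
  obtain ⟨h1, h2, h3⟩ := hζ
  filter_upwards [h1.eventually, eventually_eventually_nhds.2 h2,
    ker_eventually hf e₀ h1 h3] with z h4 h5 h6 using ⟨h4, h5, h6⟩

/-- **Dichotomy**: a relative form on a family of tori vanishes on the whole fibre, or nowhere. -/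
theorem dich_torus (hT : IsTorusFamily E E' f S Q U π u) (hf : ∀ x, HolM E E' f x)
    (e₀ : E ≃L[ℂ] (E' × V)) {N : ℕ} {Θ : X → ℂ}
    (hΘ : RelForm f S e₀ N (∅ : Set (Set X)) (fun _ => 0) Θ) {x x' : X} (hxx : f x = f x')
    (hx : f x ∉ S) (h0 : Θ x = 0) : Θ x' = 0 := by
  classical
  obtain ⟨a, ha⟩ := (hT.cover (f x)).1 hx
  set y := f x with hy
  have hfu : ∀ v, f (u a y v) = y := fun v => (hT.unif a y ha v v).1
  have hco : ∀ v, ∃ ζ : X → V, TorCoord E E' f u a (u a y v) ζ := fun v => by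
    obtain ⟨ζ, h1, h2, h3⟩ := hT.coord a (u a y v) (by rw [hfu]; exact ha)
    exact ⟨ζ, h1, h2, h3⟩
  choose ζ hζ using hco
  have hJP : ∀ v, JP e₀ (dM E E' f (u a y v)) (dV E (ζ v) (u a y v)) ≠ 0 := fun v =>
    JP_ne_zero e₀ (hζ v).2.2
  set b : V → ℂ := fun v =>
    Θ (u a y v) / JP e₀ (dM E E' f (u a y v)) (dV E (ζ v) (u a y v)) ^ N with hb
  have hb0 : ∀ v, b v = 0 → Θ (u a y v) = 0 := fun v hv => by
    rcases div_eq_zero_iff.1 hv with h | h
    · exact h
    · exact absurd h (pow_ne_zero _ (hJP v))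
  -- `b` is holomorphic
  have hdiff : Differentiable ℂ b := by
    intro v
    have hx1 := mem_chart_source E (u a y v)
    have hy1 := mem_chart_source E' (f (u a y v))
    obtain ⟨H, hH, hHe⟩ := hΘ.hol (u a y v) (u a y v) (f (u a y v)) (by rw [hfu]; exact hx)
      hx1 hy1 ∅ (fun _ _ => 0) (fun D hD => absurd rfl hD)
      (fun D hD => absurd hD (Finset.notMem_empty D))
    obtain ⟨J, hJ, hJe⟩ := JP_local hf e₀ hx1 hy1 (hζ v).1
    have hq := (unif_hol hT hf e₀ ha v (hζ v)).1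
    have hJ0 : J (u a y v) ≠ 0 := by
      intro h0
      have h2 := hJe.self_of_nhds
      rw [h0, zero_mul] at h2
      exact (mul_ne_zero (jac_chart_ne_zero hy1) (hJP v)) h2.symm
    have hev : b =ᶠ[𝓝 v] fun p => H (u a y p) / J (u a y p) ^ N := by
      filter_upwards [hq.continuousAt.eventually hHe, hq.continuousAt.eventually hJe,
        hq.continuousAt.eventually (torCoord_eventually hf e₀ (hζ v)),
        hq.continuousAt.eventually (hJ.continuousAt.eventually_ne hJ0),
        hq.continuousAt.eventually ((chartAt E (u a y v)).open_source.mem_nhds hx1)]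
        with p h1 h2 h3 h4 h5
      have h6 := h1 (fun D hD => absurd hD (notMem_empty D)) (by simp)
      simp only [Finset.prod_empty, mul_one] at h6
      have h7 : JP e₀ (dM E E' f (u a y p)) (dV E (ζ v) (u a y p)) =
          JP e₀ (dM E E' f (u a y p)) (dV E (ζ p) (u a y p)) :=
        JP_indep e₀ (dM_unif hT hf e₀ ha p (hζ p))
          (fun w => congrArg (fun L : V →L[ℂ] V => L w) (dV_unif hT hf e₀ ha p (hζ p)))
          (fun w => congrArg (fun L : V →L[ℂ] V => L w) (dV_unif hT hf e₀ ha p h3))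
      rw [h7] at h2
      have h8 := hJP p
      have h9 := jac_chart_ne_zero h5
      show Θ (u a y p) / JP e₀ (dM E E' f (u a y p)) (dV E (ζ p) (u a y p)) ^ N = _
      have h10 : jac E' (chartAt E' (f (u a y v))) (f (u a y p)) ≠ 0 := by
        intro h11
        rw [h11, zero_mul] at h2
        exact (mul_ne_zero h4 h9) h2
      rw [div_eq_div_iff (pow_ne_zero _ h8) (pow_ne_zero _ h4)]
      have h12 : jac E' (chartAt E' (f (u a y v))) (f (u a y p)) ^ N ≠ 0 := pow_ne_zero _ h10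
      refine mul_left_cancel₀ h12 ?_
      calc jac E' (chartAt E' (f (u a y v))) (f (u a y p)) ^ N *
            (Θ (u a y p) * J (u a y p) ^ N)
          = (jac E' (chartAt E' (f (u a y v))) (f (u a y p)) ^ N * Θ (u a y p)) *
              J (u a y p) ^ N := by ring
        _ = H (u a y p) * (J (u a y p) * jac E (chartAt E (u a y v)) (u a y p)) ^ N := by
            rw [h6]; ring
        _ = _ := by rw [h2]; ring
    have h1 := (slice_fderiv hq hH).1
    have h2 := (slice_fderiv hq hJ).1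
    have h3 : DifferentiableAt ℂ (fun p => H (u a y p) / J (u a y p) ^ N) v :=
      (h1.div (h2.pow N) (pow_ne_zero _ hJ0)).differentiableAt (by simp)
    exact h3.congr_of_eventuallyEq hev
  -- `b` is bounded
  obtain ⟨ε, hε, hdis⟩ := lam_discrete (π a y)
  obtain ⟨C, hC⟩ := hΘ.bound (ε / 2) (by positivity)
  have hbd : ∀ v, ‖b v‖ ≤ C := by
    intro v
    have h1 := hC v (u a y) (fun w _ => (unif_hol hT hf e₀ ha w (hζ w)).1)
      (fun w hw w' hw' hww => by
        obtain ⟨m, hm⟩ := (hT.unif a y ha w w').2.1 hww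
        have h2 : (π a y fun i => (m i : ℝ)) = 0 := by
          refine hdis _ ⟨m, rfl⟩ 0 ⟨0, ?_⟩ ?_
          · have : (fun i => ((0 : Fin n → ℤ) i : ℝ)) = (0 : Fin n → ℝ) := by
              funext i
              simp
            rw [this, map_zero]
          · rw [sub_zero]
            have h3 : (π a y fun i => (m i : ℝ)) = (w' - v) - (w - v) := by rw [hm]; abel
            rw [h3]
            rw [mem_ball_iff_norm] at hw hw'
            refine (norm_sub_le _ _).trans_lt ?_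
            linarith
        rw [hm, h2, add_zero])
      (fun w _ => by rw [hfu, hfu]) (by rw [hfu]; exact hx)
      (fun w _ D hD => absurd hD (notMem_empty D)) (dV E (ζ v) (u a y v))
      (dV_unif hT hf e₀ ha v (hζ v))
    show ‖Θ (u a y v) / JP e₀ (dM E E' f (u a y v)) (dV E (ζ v) (u a y v)) ^ N‖ ≤ C
    rw [norm_div, div_le_iff₀ (norm_pos_iff.2 (pow_ne_zero _ (hJP v)))]
    exact h1
  have hconst : ∀ v v', b v = b v' := fun v v' =>
    hdiff.apply_eq_apply_of_bounded (isBounded_iff_forall_norm_le.2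
      ⟨C, by rintro _ ⟨w, rfl⟩; exact hbd w⟩) v v'
  have hsurj : ∀ z, f z = y → ∃ v, u a y v = z := fun z hz => by
    obtain ⟨ζ', -, h2, -⟩ := hT.coord a z (by rw [hz]; exact ha)
    exact ⟨ζ' z, by have := h2.self_of_nhds; rwa [hz] at this⟩
  obtain ⟨v, hv⟩ := hsurj x rfl
  obtain ⟨v', hv'⟩ := hsurj x' hxx.symm
  have h1 : b v = 0 := by
    show Θ (u a y v) / JP e₀ (dM E E' f (u a y v)) (dV E (ζ v) (u a y v)) ^ N = 0
    rw [hv, h0, zero_div]
  rw [← hv']
  exact hb0 v' ((hconst v' v).trans h1)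

end Torus

/-- **T2** of project T-M. -/
theorem dich : H740.TM.DichStmt := by
  intro p X Z _ _ _ _ _ _ g Δ S e₀ hfib _ _ hT w Θ hΘ x x' hxx hx h0
  obtain ⟨m, Q, ι, U, π, u, hT⟩ := hT
  exact dich_torus hT (fun x => hfib.hol x) e₀ hΘ hxx hx h0

end Vale.Agent.P281.H89.TM
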